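import Vale.Agent.P057k.Ana

namespace Vale.Agent.Results.P057.Higher

open Filter

/-- `A` contains no nonconstant `k`-term arithmetic progression. -/
def APFree (k : ℕ) (A : Finset ℕ) : Prop := ¬ ∃ a d : ℕ, 0 < d ∧ ∀ i < k, a + i * d ∈ A

open Classical in
/-- `r_k(N)`: the largest size of a subset of `{1, ..., N}` with no `k`-term progression. -/
noncomputable def r (k N : ℕ) : ℕ :=
  ((Finset.Icc 1 N).powerset.filter (APFree k)).sup Finset.card

theorem result (k n : ℕ) (hk : 4 ≤ k) (hn : n = Nat.clog 2 k) (C : ℝ)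
    (hC : n * ((2 : ℝ) ^ (n * (n - 1) / 2) * Real.log (9 / 5) * Real.log 2 ^ (n - 2)) ^
      (1 / n : ℝ) < C) :
    ∀ᶠ N : ℕ in atTop, N * Real.exp (-C * Real.log N ^ (1 / n : ℝ)) ≤ r k N := by
  classical
  subst hn
  rw [← Nat.choose_two_right] at hC
  filter_upwards [Vale.Agent.P057.good_main hk C hC] with N ⟨A, hA, hF, hc⟩
  have hpos : ∀ z ∈ A, 0 ≤ z ∧ z < N := fun z hz => Finset.mem_Ico.1 (hA hz)
  have h1 : (A.image fun z => z.toNat + 1).card = A.card :=
    Finset.card_image_of_injOn fun x hx y hy h => by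
      have := hpos x hx
      have := hpos y hy
      omega
  have h2 : (A.image fun z => z.toNat + 1).card ≤ r k N := by
    refine Finset.le_sup (f := Finset.card) (Finset.mem_filter.2 ⟨Finset.mem_powerset.2 ?_, ?_⟩)
    · intro x hx
      obtain ⟨z, hz, rfl⟩ := Finset.mem_image.1 hx
      have := hpos z hz
      exact Finset.mem_Icc.2 (by omega)
    · rintro ⟨a, d, hd, h⟩
      have h3 := hF (fun i => a + i * d - 1) (fun i hi => by
        obtain ⟨z, hz, h4⟩ := Finset.mem_image.1 (h i hi)
        have h5 := hpos z hz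
        have h6 : (a : ℤ) + i * d - 1 = z := by
          have : ((z.toNat + 1 : ℕ) : ℤ) = ((a + i * d : ℕ) : ℤ) := by rw [h4]
          push_cast at this
          omega
        rwa [h6]) (fun i _ => by
          rw [Vale.Agent.P057.dd_two]
          push_cast
          ring) 1 (by omega)
      simp at h3
      omega
  exact hc.trans (by exact_mod_cast h1 ▸ h2)

end Vale.Agent.Results.P057.Higher
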