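import Vale.Agent.P057b.Main

open Filter Real Vale.Agent.P057b

namespace Vale.Agent.Results.P057.ThreeFour

theorem result :
    (∀ k : ℕ, 3 ≤ k → ∀ c : ℝ, 2 * √(log (384 / 113)) < c →
      ∀ᶠ N : ℕ in atTop, (N : ℝ) * exp (-c * √(log N)) ≤ r k N) ∧
    (∀ k : ℕ, 4 ≤ k → ∀ c : ℝ, 2 * √(log (81 / 25)) < c →
      ∀ᶠ N : ℕ in atTop, (N : ℝ) * exp (-c * √(log N)) ≤ r k N) ∧
    2 * √(log (384 / 113)) < 2 * √(log (24 / 7)) ∧
    2 * √(log (81 / 25)) < 2 * √(log (384 / 113)) :=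
  ⟨fun _ hk _ hc => lower3 hk hc, fun _ hk _ hc => lower4 hk hc,
    const_lt (by norm_num) (by norm_num), const_lt (by norm_num) (by norm_num)⟩

end Vale.Agent.Results.P057.ThreeFour
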